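import Vale.Agent.P092KP.Kap
import Vale.Agent.P092SY.Basic
import Vale.Agent.P092ES.Base

/-!
P092 (helper3), block B3: banded Kaplansky density for a framed ambient algebra.
-/

set_option linter.all false

open scoped InnerProductSpace ENNReal
open MeasureTheory Filter Topology ContinuousLinearMap

namespace Vale.Agent.P092KP

open Vale.Agent.P092CP Vale.Agent.P092ST Vale.Agent.P092ST.Amb Vale.Agent.P092FA
open Vale.Agent.P092.RC (Cm)

variable {G G' K 𝒦 : Type} [Group G] [TopologicalSpace G] [IsTopologicalGroup G]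
  [LocallyCompactSpace G] [SecondCountableTopology G] [T2Space G] [MeasurableSpace G] [BorelSpace G]
  [Group G'] [TopologicalSpace G'] [IsTopologicalGroup G'] [LocallyCompactSpace G']
  [SecondCountableTopology G'] [T2Space G'] [MeasurableSpace G'] [BorelSpace G']
  [NormedAddCommGroup K] [InnerProductSpace ℂ K] [CompleteSpace K] {μ : Measure G}
  [μ.IsHaarMeasure] {μ' : Measure G'} [μ'.IsHaarMeasure] {W : Set (K →L[ℂ] K)}
  [NormedAddCommGroup 𝒦] [InnerProductSpace ℂ 𝒦] [CompleteSpace 𝒦]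

/-- the vectors of the banded elements -/
def Bv {Γ : Type} [Group Γ] (A : Amb G Γ 𝒦) : Submodule ℂ 𝒦 where
  carrier := {ξ | ∃ J a, A.Deg 1 a ∧ A.Band J a ∧ ξ = a (A.Ω 0)}
  zero_mem' := ⟨0, 0, deg_zero 1, band_zero 0, rfl⟩
  add_mem' := by
    rintro _ _ ⟨J, a, d, b, rfl⟩ ⟨J', a', d', b', rfl⟩
    exact ⟨max J J', a + a', d.add d', (b.mono (le_max_left _ _)).add (b'.mono (le_max_right _ _)),
      rfl⟩
  smul_mem' := by
    rintro c _ ⟨J, a, d, b, rfl⟩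
    exact ⟨J, c • a, d.smul c, b.smul c, rfl⟩

theorem mem_cl {E I : Type} [NormedAddCommGroup E] [NormedSpace ℂ E] {S : Submodule ℂ E}
    {f : I → E} {ξ : E} (h : HasSum f ξ) (e : ∀ i, f i ∈ S.topologicalClosure) :
    ξ ∈ S.topologicalClosure :=
  S.isClosed_topologicalClosure.mem_of_tendsto h
    (Eventually.of_forall fun s => Submodule.sum_mem _ fun i _ => e i)

variable {C : Cpl μ μ' W} {A : Amb G C.t.Γ 𝒦} (Φ : Fr C A)

theorem cm_slot {y : K →L[ℂ] K} (hy : C.t.M y) (i : ℕ) :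
    Cm A.𝓦 (Φ.ι i ∘L y ∘L adjoint (Φ.ι 0)) := (Φ.cm_iff _).2 fun k l => by
  by_cases e : k = i ∧ l = 0
  · obtain ⟨rfl, rfl⟩ := e
    convert hy using 1
    exact ContinuousLinearMap.ext fun ξ => by simp [Φ.iso]
  · convert C.t.M_zero using 1
    refine ContinuousLinearMap.ext fun ξ => ?_
    rcases not_and_or.1 e with e | e
    · simp [Φ.orth _ _ e]
    · simp [Φ.orth _ _ (Ne.symm e)]

theorem mem_Bv {x : K →L[ℂ] K} (hx : C.t.M x) (i : ℕ) (γ : C.t.Γ) :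
    Φ.ι i (C.t.fc γ x C.t.Ω) ∈ Bv A := by
  refine ⟨A.len γ, _, deg_one_iff.2 (cm_slot Φ (C.t.M_fc (γ := γ) hx) i), fun X Y e => ?_, ?_⟩
  · have h := (P092ES.band_deg C (C.t.deg_fc (γ := γ) hx.1)).bandL C (C.t.M_fc hx) (len := A.len)
      (fun δ hδ => (congrArg _ (Finset.mem_singleton.1 hδ)).le) X Y e
    refine ContinuousLinearMap.ext fun ξ => ?_
    change A.Pj X (Φ.ι i (C.t.fc γ x (adjoint (Φ.ι 0) (A.Pj Y ξ)))) = 0
    rw [Φ.adj_Pj, Φ.Pj_ι]
    exact (congrArg (Φ.ι i) (ap_eq h _)).trans (map_zero _)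
  · simp [Φ.Ω_eq, Φ.iso]

/-- **`Kap` for a frame** -/
theorem kap_fr (Φ : Fr C A) : A.Kap := kap fun g T d _ ε hε => by
  have h1 : T (A.Ω 0) ∈ (Bv A).topologicalClosure := mem_cl (Φ.tot _) fun i => by
    have hx := (Φ.cm_iff _).1 (Φ.cm_of_deg d) i 0
    have h := (Φ.ι i).hasSum (C.t.hasSum_fc (adjoint (Φ.ι i) ∘L (T * Φ.U g⁻¹) ∘L Φ.ι 0))
    rw [comp_apply, comp_apply, ← Φ.Ω_eq, mul_ap, Φ.U_Ω] at h
    exact mem_cl h fun γ => (Bv A).le_topologicalClosure (mem_Bv Φ hx i γ)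
  obtain ⟨_, ⟨J, a, da, ba, rfl⟩, h2⟩ := Metric.mem_closure_iff.1 h1 ε hε
  refine ⟨J, a * Φ.U g, da.one_mul (Φ.U_deg g), ba.mul0 (band_of_comm (Φ.U_Pj g)), ?_⟩
  rw [sub_apply, mul_ap, Φ.U_Ω, ← dist_eq_norm, dist_comm]
  exact h2.le

end Vale.Agent.P092KP
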