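import Vale.Agent.P092ST.Rat

/-!
P092 (helper3), block B3: banded Kaplansky density.
-/

set_option linter.all false

open scoped InnerProductSpace ENNReal ComplexConjugate
open MeasureTheory Filter Topology

namespace Vale.Agent.P092KP

open Vale.Agent.P092ST Vale.Agent.P092ST.Amb

section op

variable {𝒦 : Type} [NormedAddCommGroup 𝒦] [InnerProductSpace ℂ 𝒦] [CompleteSpace 𝒦]

theorem sq_comb (a : 𝒦 →L[ℂ] 𝒦) (s t : ℝ) (ξ : 𝒦) :
    ‖((s : ℂ) • 1 + (t : ℂ) • (star a * a)) ξ‖ ^ 2 =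
      s ^ 2 * ‖ξ‖ ^ 2 + 2 * (s * t * ‖a ξ‖ ^ 2) + t ^ 2 * ‖(star a * a) ξ‖ ^ 2 := by
  have h1 := norm_add_sq (𝕜 := ℂ) ((s : ℂ) • ξ) ((t : ℂ) • (star a * a) ξ)
  have h4 := re_star_mul a ξ
  rw [inner_smul_left, inner_smul_right, norm_smul, norm_smul] at h1
  simp only [RCLike.re_to_complex, Complex.conj_ofReal, Complex.re_ofReal_mul, Complex.norm_real,
    Real.norm_eq_abs, mul_pow, sq_abs, h4] at h1
  change ‖(s : ℂ) • ξ + (t : ℂ) • (star a * a) ξ‖ ^ 2 = _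
  rw [h1]
  ring

theorem exists_res (a : 𝒦 →L[ℂ] 𝒦) : ∃ (c : ℂ) (k R : 𝒦 →L[ℂ] 𝒦), ‖k‖ < 1 ∧
    k = 1 - c • (1 + star a * a) ∧ (1 + star a * a) * R = 1 ∧ R * (1 + star a * a) = 1 ∧
    ‖R‖ ≤ 1 ∧ ‖a * R‖ ≤ 1 / 2 := by
  obtain ⟨c, hc⟩ : ∃ c : ℝ, c = (1 + ‖a‖ ^ 2)⁻¹ := ⟨_, rfl⟩
  have c0 : 0 < c := by rw [hc]; positivity
  have c1 : c * ‖a‖ ^ 2 = 1 - c := by rw [hc]; field_simp; ring
  have c2 : 0 ≤ 1 - c := by rw [← c1]; positivity
  have hT : ∀ ξ, ‖(star a * a) ξ‖ ≤ ‖a‖ * ‖a ξ‖ := fun ξ => by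
    have := (star a).le_opNorm (a ξ)
    rwa [norm_star] at this
  have hk : ‖1 - (c : ℂ) • (1 + star a * a)‖ < 1 := by
    refine lt_of_le_of_lt (ContinuousLinearMap.opNorm_le_bound _ c2 fun ξ => ?_) (by linarith)
    have e : 1 - (c : ℂ) • (1 + star a * a) =
        ((1 - c : ℝ) : ℂ) • 1 + ((-c : ℝ) : ℂ) • (star a * a) := by
      push_cast
      module
    refine le_of_sq_le_sq ?_ (by positivity)
    rw [e, sq_comb]
    have h1 := mul_le_mul_of_nonneg_left (pow_le_pow_left₀ (norm_nonneg _) (hT ξ) 2) (sq_nonneg c)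
    have h2 : c ^ 2 * (‖a‖ * ‖a ξ‖) ^ 2 = c * (1 - c) * ‖a ξ‖ ^ 2 := by rw [← c1]; ring
    have h3 : 0 ≤ c * (1 - c) * ‖a ξ‖ ^ 2 := by positivity
    nlinarith
  have h1 := geom_series_mul_neg _ hk
  have h2 := mul_neg_geom_series _ hk
  rw [sub_sub_cancel] at h1 h2
  have r1 : (1 + star a * a) * ((c : ℂ) • ∑' i : ℕ, (1 - (c : ℂ) • (1 + star a * a)) ^ i) = 1 := by
    rwa [mul_smul_comm, ← smul_mul_assoc]
  refine ⟨c, _, _, hk, rfl, r1, by rwa [smul_mul_assoc, ← mul_smul_comm], ?_⟩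
  generalize (c : ℂ) • ∑' i : ℕ, (1 - (c : ℂ) • (1 + star a * a)) ^ i = R at r1 ⊢
  have key : ∀ ξ, ‖ξ‖ ^ 2 = ‖R ξ‖ ^ 2 + 2 * ‖a (R ξ)‖ ^ 2 + ‖(star a * a) (R ξ)‖ ^ 2 := fun ξ => by
    have h3 := sq_comb a 1 1 (R ξ)
    rw [Complex.ofReal_one, one_smul, one_smul, ← ContinuousLinearMap.mul_apply, r1] at h3
    simpa using h3
  refine ⟨ContinuousLinearMap.opNorm_le_bound _ zero_le_one fun ξ => ?_,
    ContinuousLinearMap.opNorm_le_bound _ (by norm_num) fun ξ => ?_⟩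
  · refine le_of_sq_le_sq ?_ (by positivity)
    rw [one_mul, key ξ]
    nlinarith [sq_nonneg ‖a (R ξ)‖, sq_nonneg ‖(star a * a) (R ξ)‖]
  · refine le_of_sq_le_sq ?_ (by positivity)
    have h3 := re_star_mul a (R ξ)
    have h4 := (Complex.re_le_norm _).trans (norm_inner_le_norm (𝕜 := ℂ) (R ξ)
      ((star a * a) (R ξ)))
    rw [mul_pow, key ξ, ContinuousLinearMap.mul_apply]
    nlinarith [sq_nonneg (‖R ξ‖ - ‖(star a * a) (R ξ)‖)]

end op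

variable {G Γ 𝒦 : Type} [Group G] [TopologicalSpace G] [Group Γ] [NormedAddCommGroup 𝒦]
  [InnerProductSpace ℂ 𝒦] [CompleteSpace 𝒦]

/-- banded columns are dense -/
def Kap0 (A : Amb G Γ 𝒦) : Prop :=
  ∀ (g : G) (T : 𝒦 →L[ℂ] 𝒦), A.Deg g T → star T * T = A.V 1 → ∀ ε : ℝ, 0 < ε →
    ∃ (J : ℝ) (a : 𝒦 →L[ℂ] 𝒦), A.Deg g a ∧ A.Band J a ∧ ‖(a - T) (A.Ω 0)‖ ≤ ε

theorem col_of_iso {A : Amb G Γ 𝒦} {T : 𝒦 →L[ℂ] 𝒦} (h : star T * T = A.V 1) : T * A.V 1 = T := by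
  have h1 : star (T * A.V 1 - T) * (T * A.V 1 - T) = 0 := by
    have pp : A.V 1 * A.V 1 = A.V 1 := p_mul_V 1
    rw [star_sub, star_mul, star_p, sub_mul, mul_sub, mul_sub, mul_assoc, mul_assoc,
      ← mul_assoc (star T), h, pp, pp]
    simp
  exact sub_eq_zero.1 (CStarRing.star_mul_self_eq_zero_iff _ |>.1 h1)

/-- **banded Kaplansky density** -/
theorem kap {A : Amb G Γ 𝒦} (h : Kap0 A) : A.Kap := by
  intro g T dV hT ε hε
  obtain ⟨J, a0, d0, b0, n0⟩ := h g T dV hT (ε / 8) (by linarith)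
  have cT := col_of_iso hT
  have nT : ‖T‖ ≤ 1 := norm_le_of_star (hT ▸ norm_p)
  obtain ⟨a, ha⟩ : ∃ a, a = a0 * A.V 1 := ⟨_, rfl⟩
  have d : A.Deg g a := ha ▸ d0.mul1 (deg_V 1)
  have b : A.Band |J| a := ha ▸ (b0.mul0 band_p).mono (le_abs_self J)
  have co : a * A.V 1 = a := ha ▸ col_p a0 1
  have h5 : A.n2 (a - T) ≤ ε / 8 := by
    rw [ha, ← cT, ← sub_mul, n2_p]
    exact n0
  have hJ := abs_nonneg J
  generalize |J| = J at b hJ
  obtain ⟨c, k, R, hk, ek, r1, r2, nR, nA⟩ := exists_res a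
  have dT := deg_id.add (d.star_mul d)
  have dR : A.Deg 1 R := dT.inv r1 r2
  have dΔ := d.sub dV
  have cΔ : (a - T) * A.V 1 = a - T := by rw [sub_mul, co, cT]
  have e1 : (2 : ℂ) • (a * R) - T = (2 : ℂ) • ((a - T) * R) -
      T * star T * ((a - T) * R) - T * (star (a - T) * (a * R)) := by
    have e2 : T * (star T * (T * R)) = T * R := by rw [← mul_assoc (star T), hT, ← mul_assoc, cT]
    calc _ = (2 : ℂ) • (a * R) - T * ((1 + star a * a) * R) := by rw [r1, mul_one]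
      _ = _ := by
        rw [star_sub, sub_mul a T R, mul_sub (T * star T), mul_assoc T _ (T * R), e2, two_smul,
          two_smul]
        noncomm_ring
  have n1 : A.n2 ((2 : ℂ) • (a * R) - T) ≤ ε / 2 := by
    have h1 := (n2_right cΔ dΔ dR).trans (mul_le_of_le_one_left (n2_nonneg _) nR)
    have sΔ := (hs_col cΔ).star dΔ
    have h2 := (sΔ.mul_right dΔ.star (d.mul1 dR)).n2_le.trans
      (sΔ.hs_mul_right dΔ.star (d.mul1 dR))
    rw [(hs_col cΔ).hs_star dΔ, hs_eq_n2 cΔ] at h2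
    have h3 := n2_mul1 (A := A) nT (star (a - T) * (a * R))
    have h4 := mul_le_mul_of_nonneg_right nA (n2_nonneg (A := A) (a - T))
    have h6 := n2_mul1 (A := A) (norm_mul_le1 nT ((norm_star T).trans_le nT)) ((a - T) * R)
    have h7 := n2_smul (A := A) 2 ((a - T) * R)
    rw [Complex.norm_ofNat] at h7
    rw [e1]
    linarith [n2_sub (A := A) ((2 : ℂ) • ((a - T) * R)) (T * star T * ((a - T) * R)),
      n2_sub (A := A) ((2 : ℂ) • ((a - T) * R) - T * star T * ((a - T) * R))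
        (T * (star (a - T) * (a * R)))]
  have nY : ‖(2 : ℂ) • (a * R)‖ ≤ 1 := by
    rw [norm_smul, Complex.norm_ofNat]
    linarith
  obtain ⟨N, hN⟩ := exists_pow_lt_of_lt_one (show 0 < ε / 4 by linarith) hk
  have nk : ‖(2 : ℂ) • (a * R) * k ^ N‖ ≤ ε / 4 := by
    refine (norm_mul_le _ _).trans ((mul_le_of_le_one_left (norm_nonneg _) nY).trans ?_)
    rcases N.eq_zero_or_pos with rfl | h0
    · rw [pow_zero] at hN ⊢
      exact norm_one_le.trans hN.le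
    · exact (norm_pow_le' k h0).trans hN.le
  have e3 : (2 : ℂ) • (a * R) - (2 : ℂ) • (a * R) * k ^ N =
      (2 * c) • (a * ∑ i ∈ Finset.range N, k ^ i) := by
    rw [← mul_one_sub, ← mul_neg_geom_sum, ek, sub_sub_cancel, ← mul_assoc, smul_mul_assoc,
      mul_smul_comm, mul_assoc a, r2, mul_one, smul_smul, smul_mul_assoc]
  have bk : A.Band (J + J) k :=
    ek ▸ (band_id.mono (by linarith)).sub (((band_id.mono (by linarith)).add (b.star.mul b)).smul _)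
  have dk : A.Deg 1 k := ek ▸ deg_id.sub (dT.smul _)
  obtain ⟨y, hy⟩ : ∃ y, y = (2 : ℂ) • (a * R) - (2 : ℂ) • (a * R) * k ^ N := ⟨_, rfl⟩
  have ny : ‖y‖ ≤ 1 + ε / 4 := hy ▸ (norm_sub_le _ _).trans (add_le_add nY nk)
  have s0 : 0 < 1 + ε / 4 := by linarith
  have ns : ‖(((1 + ε / 4)⁻¹ : ℝ) : ℂ) • y‖ ≤ 1 := by
    rw [norm_smul, Complex.norm_real, Real.norm_eq_abs, abs_of_pos (inv_pos.2 s0),
      inv_mul_le_iff₀ s0, mul_one]
    exact ny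
  refine ⟨J + N * (J + J), (((1 + ε / 4)⁻¹ : ℝ) : ℂ) • y, ?_, ?_, ns, ?_⟩
  · rw [hy, e3]
    exact ((d.mul1 (Deg.sum fun i _ => (dk.pow i).cast (one_pow i))).smul _).smul _
  · rw [hy, e3]
    exact ((b.mul (Band.sum fun i hi => (bk.pow i).mono (mul_le_mul_of_nonneg_right
      (Nat.cast_le.2 (Finset.mem_range.1 hi).le) (by linarith)))).smul _).smul _
  · have e4 : (((1 + ε / 4)⁻¹ : ℝ) : ℂ) • y - T = ((2 : ℂ) • (a * R) - T) -
        (2 : ℂ) • (a * R) * k ^ N - ((ε / 4 : ℝ) : ℂ) • ((((1 + ε / 4)⁻¹ : ℝ) : ℂ) • y) := by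
      have e5 : ((ε / 4 : ℝ) : ℂ) * (((1 + ε / 4)⁻¹ : ℝ) : ℂ) = 1 - (((1 + ε / 4)⁻¹ : ℝ) : ℂ) := by
        rw [← Complex.ofReal_mul, ← Complex.ofReal_one, ← Complex.ofReal_sub]
        congr 1
        field_simp
        ring
      rw [smul_smul, e5, sub_smul, one_smul, sub_right_comm _ T, ← hy]
      abel
    have h1 : A.n2 (((ε / 4 : ℝ) : ℂ) • ((((1 + ε / 4)⁻¹ : ℝ) : ℂ) • y)) ≤ ε / 4 := by
      rw [n2_smul, Complex.norm_real, Real.norm_eq_abs, abs_of_pos (by linarith)]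
      exact mul_le_of_le_one_right (by linarith) ((n2_le_norm _).trans ns)
    have h2 := (n2_le_norm (A := A) _).trans nk
    show A.n2 _ ≤ ε
    rw [e4]
    linarith [n2_sub (A := A) ((2 : ℂ) • (a * R) - T) ((2 : ℂ) • (a * R) * k ^ N),
      n2_sub (A := A) ((2 : ℂ) • (a * R) - T - (2 : ℂ) • (a * R) * k ^ N)
        (((ε / 4 : ℝ) : ℂ) • ((((1 + ε / 4)⁻¹ : ℝ) : ℂ) • y))]

end Vale.Agent.P092KP
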